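import Vale.Agent.P325.H469.K2.Fourier

/-!
# Smoothed influences: Lipschitz bound, sums over disjoint sets, irrelevant coordinates
-/

namespace Vale.Agent.P325.H469.K2

open Finset Vale.Agent.P325.K2

section

variable {ι : Type} [Fintype ι] [DecidableEq ι]

/-! ### The kernels -/

/-- The averaging kernel: noise on the coordinates outside of `A`, averaging on `A`. -/
noncomputable def ker (A : Finset ι) (x y : ι → Bool) : ℝ :=
  ∏ i ∈ Aᶜ, (1 + 1 / 2 * (sg (x i) * sg (y i)))

theorem ker_nonneg (A : Finset ι) (x y : ι → Bool) : 0 ≤ ker A x y := by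
  refine prod_nonneg fun i _ => ?_
  have h1 : |sg (x i) * sg (y i)| = 1 := by rw [abs_mul, abs_sg, abs_sg, one_mul]
  have h2 := neg_abs_le (sg (x i) * sg (y i))
  rw [h1] at h2
  linarith

theorem ker_comm (A : Finset ι) (x y : ι → Bool) : ker A x y = ker A y x := by
  refine prod_congr rfl fun i _ => ?_
  rw [mul_comm (sg (x i))]

theorem Ex_ker (A : Finset ι) (x : ι → Bool) : Ex (fun y => ker A x y) = 1 := by
  have h1 : ∀ y, ker A x y =
      ∑ S : Finset ι, (if Disjoint S A then (1 / 2) ^ #S * chi S x else 0) * chi S y := by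
    intro y
    rw [ker, ← sum_kernel]
    refine sum_congr rfl fun S _ => ?_
    split_ifs <;> ring
  simp only [h1, Ex_sum, Ex_const_mul, Ex_chi, mul_ite, mul_one, mul_zero, sum_ite_eq', mem_univ,
    if_true, disjoint_empty_left, card_empty, pow_zero, chi_empty]

/-- The quadratic form of the kernel. -/
noncomputable def qf (A : Finset ι) (f g : (ι → Bool) → ℝ) : ℝ :=
  Ex fun x => Ex fun y => f x * g y * ker A x y

theorem qf_eq (A : Finset ι) (f : (ι → Bool) → ℝ) :
    qf A f f = ∑ S : Finset ι, if Disjoint S A then (1 / 2) ^ #S * fc f S ^ 2 else 0 := by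
  have h1 := sum_weight (fun S : Finset ι => if Disjoint S A then ((1 / 2 : ℝ)) ^ #S else 0) f f
  have h2 : ∀ x y : ι → Bool, ∑ S : Finset ι, (if Disjoint S A then ((1 / 2 : ℝ)) ^ #S else 0) *
      (chi S x * chi S y) = ker A x y := by
    intro x y
    rw [ker, ← sum_kernel]
    refine sum_congr rfl fun S _ => ?_
    split_ifs <;> ring
  simp only [h2] at h1
  rw [qf, ← h1]
  refine sum_congr rfl fun S _ => ?_
  split_ifs <;> ring

theorem sInf_eq (f : (ι → Bool) → ℝ) (A : Finset ι) : sInf f A = qf ∅ f f - qf A f f := by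
  rw [qf_eq, qf_eq, K2.sInf, ← sum_sub_distrib]
  refine sum_congr rfl fun S _ => ?_
  simp only [disjoint_empty_right, if_true]
  split_ifs <;> ring

theorem qf_comm (A : Finset ι) (f g : (ι → Bool) → ℝ) : qf A f g = qf A g f := by
  rw [qf, qf, Ex_comm]
  refine Ex_congr fun x => Ex_congr fun y => ?_
  rw [ker_comm A y x]
  ring

/-- The form is bounded by the average of the first argument if the second one is bounded. -/
theorem abs_qf_le (A : Finset ι) (f g : (ι → Bool) → ℝ) (hg : ∀ x, |g x| ≤ 1) :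
    |qf A f g| ≤ Ex fun x => |f x| := by
  refine (Ex_abs_le _).trans (Ex_mono fun x => ?_)
  refine (Ex_abs_le _).trans ?_
  have h1 : ∀ y, |f x * g y * ker A x y| ≤ |f x| * ker A x y := by
    intro y
    rw [abs_mul, abs_mul, abs_of_nonneg (ker_nonneg A x y)]
    refine mul_le_mul_of_nonneg_right ?_ (ker_nonneg A x y)
    exact mul_le_of_le_one_right (abs_nonneg _) (hg y)
  refine (Ex_mono h1).trans (le_of_eq ?_)
  rw [Ex_const_mul, Ex_ker, mul_one]

theorem qf_sub_left (A : Finset ι) (f f' g : (ι → Bool) → ℝ) :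
    qf A (fun x => f x - f' x) g = qf A f g - qf A f' g := by
  simp only [qf, sub_mul, Ex_sub]

theorem abs_qf_sub_le (A : Finset ι) {f f' : (ι → Bool) → ℝ} (hf : IsSign f) (hf' : IsSign f') :
    |qf A f f - qf A f' f'| ≤ 4 * Pr fun x => f x ≠ f' x := by
  have hb : ∀ {g : (ι → Bool) → ℝ}, IsSign g → ∀ x, |g x| ≤ 1 := by
    intro g hg x
    rcases hg x with h | h <;> rw [h] <;> norm_num
  have h1 : qf A f f - qf A f' f' =
      qf A (fun x => f x - f' x) f + qf A (fun x => f x - f' x) f' := by
    rw [qf_sub_left, qf_sub_left, qf_comm A f f']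
    ring
  have h2 : (Ex fun x => |f x - f' x|) = 2 * Pr fun x => f x ≠ f' x := by
    classical
    rw [Pr, ← Ex_const_mul]
    refine Ex_congr fun x => ?_
    rcases hf x with h | h <;> rcases hf' x with h' | h' <;> rw [h, h'] <;> norm_num
  rw [h1]
  refine (abs_add_le _ _).trans ?_
  have h3 := abs_qf_le A (fun x => f x - f' x) f (hb hf)
  have h4 := abs_qf_le A (fun x => f x - f' x) f' (hb hf')
  rw [h2] at h3 h4
  linarith

/-! ### Irrelevant coordinates -/

theorem fc_eq_zero (f : (ι → Bool) → ℝ) {i : ι} (hi : ∀ x, f (flp x i) = f x) {S : Finset ι}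
    (hS : i ∈ S) : fc f S = 0 := by
  have h1 := Ex_flp (fun x : ι → Bool => f x * chi S x) i
  simp only [hi, chi_flp_of_mem hS, mul_neg, Ex_neg] at h1
  rw [fc]
  linarith

end

theorem lipThm : LipThm := by
  intro ι _ _ f f' hf hf' A
  rw [sInf_eq, sInf_eq]
  have h1 := abs_qf_sub_le ∅ hf hf'
  have h2 := abs_qf_sub_le A hf hf'
  have h3 : qf ∅ f f - qf A f f - (qf ∅ f' f' - qf A f' f') =
      (qf ∅ f f - qf ∅ f' f') - (qf A f f - qf A f' f') := by ring
  rw [h3]
  refine (abs_sub _ _).trans ?_
  linarith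

theorem sumThm : SumThm := by
  intro ι Θ _ _ _ _ f hf grp
  simp only [K2.sInf]
  rw [sum_comm]
  refine le_trans (sum_le_sum fun S _ => ?_) (le_of_eq (parseval_sign hf))
  have h1 : ∑ θ : Θ, (if Disjoint S (univ.filter fun i => grp i = θ) then (0 : ℝ) else
      (1 / 2) ^ #S * fc f S ^ 2) = ∑ θ ∈ S.image grp, (1 / 2) ^ #S * fc f S ^ 2 := by
    have h0 : S.image grp = univ.filter fun θ => ¬ Disjoint S (univ.filter fun i => grp i = θ) := by
      ext θ
      simp only [mem_filter, mem_univ, true_and, mem_image, not_disjoint_iff]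
    rw [h0, sum_filter]
    refine sum_congr rfl fun θ _ => ?_
    by_cases h : Disjoint S (univ.filter fun i => grp i = θ)
    · rw [if_pos h, if_neg (not_not.2 h)]
    · rw [if_neg h, if_pos h]
  rw [h1, sum_const, nsmul_eq_mul, ← mul_assoc]
  refine mul_le_of_le_one_left (sq_nonneg _) ?_
  have h2 : (#(S.image grp) : ℝ) ≤ 2 ^ #S := by
    have h3 : #(S.image grp) ≤ 2 ^ #S := card_image_le.trans Nat.lt_two_pow_self.le
    exact_mod_cast h3
  rw [one_div, inv_pow]
  rw [mul_inv_le_iff₀ (by positivity)]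
  linarith

theorem irrThm : IrrThm := by
  intro ι _ _ f W hW A A' hA
  have h1 : ∀ S : Finset ι, ¬ S ⊆ W → fc f S = 0 := by
    intro S hS
    obtain ⟨i, hi, hiW⟩ := not_subset.1 hS
    refine fc_eq_zero f (i := i) (fun x => ?_) hi
    refine hW _ _ fun j hj => ?_
    have hji : j ≠ i := fun h => hiW (h ▸ hj)
    rw [flp, Function.update_of_ne hji]
  have h2 : ∀ S : Finset ι, S ⊆ W → (Disjoint S A ↔ Disjoint S A') := by
    intro S hS
    have h3 : ∀ B : Finset ι, Disjoint S B ↔ Disjoint S (B ∩ W) := by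
      intro B
      rw [disjoint_left, disjoint_left]
      constructor
      · intro h i hi hB
        exact h hi (mem_inter.1 hB).1
      · intro h i hi hB
        exact h hi (mem_inter.2 ⟨hB, hS hi⟩)
    rw [h3 A, h3 A', hA]
  constructor
  · refine sum_congr rfl fun S _ => ?_
    by_cases hS : S ⊆ W
    · simp only [h2 S hS]
    · simp [h1 S hS]
  · refine sum_congr rfl fun S _ => ?_
    by_cases hS : S ⊆ W
    · simp only [h2 S hS]
    · simp [h1 S hS]

theorem oddThm : OddThm := by
  intro ι _ _ f hf hodd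
  have h1 : fc f ∅ = 0 := by
    have h2 : (Ex fun x : ι → Bool => f fun i => !x i) = Ex f :=
      Ex_equiv (Function.Involutive.toPerm (fun (x : ι → Bool) (i : ι) => !x i)
        fun x => by funext i; simp) f
    simp only [hodd, Ex_neg] at h2
    rw [fc]
    simp only [chi_empty, mul_one]
    linarith
  rw [← parseval_sign hf, Inf]
  refine sum_congr rfl fun S _ => ?_
  split_ifs with h
  · have h3 : S = ∅ := by
      rw [eq_empty_iff_forall_notMem]
      intro i hi
      exact disjoint_left.1 h hi (mem_univ i)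
    rw [h3, h1]
    norm_num
  · rfl

theorem monoThm : MonoThm := by
  intro ι _ _ f A B hAB
  refine ⟨sum_le_sum fun S _ => ?_, sum_le_sum fun S _ => ?_, sum_nonneg fun S _ => ?_⟩
  · split_ifs with h1 h2 h2
    · exact le_rfl
    · positivity
    · exact absurd (h2.mono_right hAB) h1
    · exact le_rfl
  · split_ifs with h1
    · exact le_rfl
    · refine mul_le_of_le_one_left (sq_nonneg _) ?_
      exact pow_le_one₀ (by norm_num) (by norm_num)
  · split_ifs with h1
    · exact le_rfl
    · positivity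

end Vale.Agent.P325.H469.K2
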