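import Vale.Agent.P325.H111.K2.Stmts

/-!
# The tuples of constraints with a large support are rare
-/

namespace Vale.Agent.P325.H469.K2

open Finset Vale.Agent.Lib.PCP Vale.Agent.P342 Vale.Agent.P325.K2

theorem Pr_coll {n N : ℕ} [NeZero N] :
    (Ex fun c : Win n N => Pr fun c' : Win n N => ¬ Dj c c') ≤ (n : ℝ) / N := by
  classical
  have hN : (0 : ℝ) < N := by exact_mod_cast Nat.pos_of_ne_zero (NeZero.ne N)
  have h1 : ∀ (c : Win n N) (k : Fin n), (Pr fun c' : Win n N => c k = c' k) ≤ 1 / (N : ℝ) := by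
    intro c k
    have h2 := Ex_comp_inj (α := Fin N) (I := Fin n) (J := Unit) (fun _ => k)
      (fun a b _ => Subsingleton.elim a b) (fun w => if c k = w () then (1 : ℝ) else 0)
    have h3 : (Pr fun c' : Win n N => c k = c' k) =
        Ex fun w : Unit → Fin N => if c k = w () then (1 : ℝ) else 0 := by
      rw [← h2, Pr]
      refine Ex_congr fun x => ?_
      by_cases h : c k = x k <;> simp [h]
    have h4 := Ex_equiv (Equiv.funUnique Unit (Fin N)) fun v => if c k = v then (1 : ℝ) else 0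
    have h5 : (Ex fun w : Unit → Fin N => if c k = w () then (1 : ℝ) else 0) =
        Ex fun v : Fin N => if c k = v then (1 : ℝ) else 0 := by
      rw [← h4]
      rfl
    rw [h3, h5, Ex]
    simp
  have h6 : ∀ c : Win n N, (Pr fun c' : Win n N => ¬ Dj c c') ≤ (n : ℝ) / N := by
    intro c
    have h7 : (Pr fun c' : Win n N => ¬ Dj c c') = Pr fun c' : Win n N => ∃ k, c k = c' k := by
      refine Pr_congr fun c' => ?_
      simp only [Dj, not_forall, not_not]
    rw [h7]
    refine (Pr_exists_le _).trans ?_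
    refine (sum_le_sum fun k _ => h1 c k).trans ?_
    simp only [sum_const, card_univ, Fintype.card_fin, nsmul_eq_mul]
    rw [mul_one_div]
  refine (Ex_mono h6).trans ?_
  rw [Ex_const]

theorem sound_nonneg {r : ℕ} [NeZero r] {G : PG ℕ ℕ (Fin r) (Fin r)} (hG : G ≠ []) {η : ℝ}
    (h : G.Sound η) : 0 ≤ η := by
  have h1 := h (fun _ => 0) (fun _ => 0)
  have h2 : (0 : ℝ) < G.length := by exact_mod_cast List.length_pos_iff.2 hG
  by_contra h3
  push Not at h3
  have h4 : η * G.length < 0 := mul_neg_of_neg_of_pos h3 h2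
  have h5 : (0 : ℝ) ≤ (G.sat (fun _ => 0) (fun _ => 0) : ℝ) := Nat.cast_nonneg _
  linarith

theorem abstract_bad {P Z Θ : Type} [Fintype P] [Fintype Z] [Nonempty P] [Nonempty Z]
    (S : P → Θ → Z → Prop) (D : Z → Z → Prop) (E : P → Z → Prop) (t δ₁ δ₂ : ℝ) (ht : 0 ≤ t)
    (hδ : 0 ≤ δ₂) (h1 : (Ex fun z => Pr fun z' => ¬ D z z') ≤ δ₁)
    (h2 : ∀ z z', D z z' → (Pr fun p => E p z ∧ ∃ θ, S p θ z ∧ S p θ z') ≤ δ₂) :
    (Pr fun p => ∃ θ, t ≤ Pr fun z => S p θ z) * t ^ 2 ≤
      δ₂ + δ₁ + Pr fun q : P × Z => ¬ E q.1 q.2 := by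
  classical
  obtain ⟨u1, hu1⟩ : ∃ u1 : Z → Z → ℝ, ∀ z z', u1 z z' = if ¬ D z z' then 1 else 0 :=
    ⟨_, fun _ _ => rfl⟩
  obtain ⟨u2, hu2⟩ : ∃ u2 : P → Z → Z → ℝ, ∀ p z z', u2 p z z' =
    if D z z' ∧ E p z ∧ ∃ θ, S p θ z ∧ S p θ z' then 1 else 0 := ⟨_, fun _ _ _ => rfl⟩
  obtain ⟨u3, hu3⟩ : ∃ u3 : P → Z → ℝ, ∀ p z, u3 p z = if ¬ E p z then 1 else 0 :=
    ⟨_, fun _ _ => rfl⟩
  have u1n : ∀ z z', 0 ≤ u1 z z' := fun z z' => by rw [hu1]; split_ifs <;> norm_num
  have u2n : ∀ p z z', 0 ≤ u2 p z z' := fun p z z' => by rw [hu2]; split_ifs <;> norm_num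
  have u3n : ∀ p z, 0 ≤ u3 p z := fun p z => by rw [hu3]; split_ifs <;> norm_num
  have key : ∀ p : P, (if ∃ θ, t ≤ Pr fun z => S p θ z then (1 : ℝ) else 0) * t ^ 2 ≤
      (Ex fun z => Ex fun z' => u2 p z z') + (Ex fun z => Ex fun z' => u1 z z') +
        Ex fun z => u3 p z := by
    intro p
    split_ifs with hp
    · obtain ⟨θ, hθ⟩ := hp
      obtain ⟨s, hs⟩ : ∃ s : Z → ℝ, ∀ z, s z = if S p θ z then 1 else 0 := ⟨_, fun _ => rfl⟩
      have hθ' : t ≤ Ex s := by
        refine hθ.trans (le_of_eq ?_)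
        rw [Pr]
        exact Ex_congr fun z => by rw [hs]
      have h3 : t ^ 2 ≤ Ex s ^ 2 := pow_le_pow_left₀ ht hθ' 2
      have h4 : Ex s ^ 2 = Ex fun z => Ex fun z' => s z * s z' := by
        simp only [Ex_const_mul, Ex_mul_const]
        rw [sq]
      rw [one_mul]
      refine h3.trans ?_
      rw [h4]
      have h5 : ∀ z, (Ex fun z' => s z * s z') ≤
          (Ex fun z' => u2 p z z') + (Ex fun z' => u1 z z') + u3 p z := by
        intro z
        have h6 : (Ex fun z' => s z * s z') ≤ Ex fun z' => u2 p z z' + u1 z z' + u3 p z := by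
          refine Ex_mono fun z' => ?_
          have e1 := u1n z z'
          have e2 := u2n p z z'
          have e3 := u3n p z
          by_cases a1 : S p θ z
          · by_cases a2 : S p θ z'
            · have h7 : s z * s z' = 1 := by rw [hs, hs, if_pos a1, if_pos a2, one_mul]
              rw [h7]
              by_cases b1 : D z z'
              · by_cases b2 : E p z
                · have h8 : u2 p z z' = 1 := by rw [hu2, if_pos ⟨b1, b2, θ, a1, a2⟩]
                  linarith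
                · have h8 : u3 p z = 1 := by rw [hu3, if_pos b2]
                  linarith
              · have h8 : u1 z z' = 1 := by rw [hu1, if_pos b1]
                linarith
            · have h7 : s z * s z' = 0 := by rw [hs z', if_neg a2, mul_zero]
              rw [h7]
              linarith
          · have h7 : s z * s z' = 0 := by rw [hs z, if_neg a1, zero_mul]
            rw [h7]
            linarith
        refine h6.trans (le_of_eq ?_)
        rw [Ex_add, Ex_add, Ex_const]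
      refine (Ex_mono h5).trans (le_of_eq ?_)
      rw [Ex_add, Ex_add]
    · rw [zero_mul]
      exact add_nonneg (add_nonneg (Ex_nonneg fun z => Ex_nonneg fun z' => u2n p z z')
        (Ex_nonneg fun z => Ex_nonneg fun z' => u1n z z')) (Ex_nonneg fun z => u3n p z)
  have h7 : (Pr fun p => ∃ θ, t ≤ Pr fun z => S p θ z) * t ^ 2 ≤
      (Ex fun p => Ex fun z => Ex fun z' => u2 p z z') + (Ex fun z => Ex fun z' => u1 z z') +
        Ex fun p => Ex fun z => u3 p z := by
    have h8 : (Pr fun p => ∃ θ, t ≤ Pr fun z => S p θ z) * t ^ 2 =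
        Ex fun p => (if ∃ θ, t ≤ Pr fun z => S p θ z then (1 : ℝ) else 0) * t ^ 2 := by
      rw [Ex_mul_const, Pr]
    rw [h8]
    refine (Ex_mono key).trans (le_of_eq ?_)
    rw [Ex_add, Ex_add, Ex_const (α := P)]
  have h8 : (Ex fun p => Ex fun z => Ex fun z' => u2 p z z') ≤ δ₂ := by
    rw [Ex_comm]
    have h9 : ∀ z, (Ex fun p => Ex fun z' => u2 p z z') ≤ δ₂ := by
      intro z
      rw [Ex_comm]
      have h10 : ∀ z', (Ex fun p => u2 p z z') ≤ δ₂ := by
        intro z'
        by_cases b1 : D z z'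
        · refine le_trans (le_of_eq ?_) (h2 z z' b1)
          rw [Pr]
          refine Ex_congr fun p => ?_
          rw [hu2]
          by_cases c1 : E p z ∧ ∃ θ, S p θ z ∧ S p θ z'
          · rw [if_pos ⟨b1, c1⟩, if_pos c1]
          · rw [if_neg fun h => c1 h.2, if_neg c1]
        · have h11 : (fun p => u2 p z z') = fun _ => 0 := by
            funext p
            rw [hu2, if_neg fun h => b1 h.1]
          rw [h11, Ex_const]
          exact hδ
      refine (Ex_mono h10).trans ?_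
      rw [Ex_const]
    refine (Ex_mono h9).trans ?_
    rw [Ex_const]
  have h12 : (Ex fun z => Ex fun z' => u1 z z') ≤ δ₁ := by
    refine le_trans (le_of_eq ?_) h1
    refine Ex_congr fun z => ?_
    rw [Pr]
    refine Ex_congr fun z' => ?_
    rw [hu1]
    by_cases h : D z z' <;> simp [h]
  have h15 : (Ex fun p => Ex fun z => u3 p z) = Pr fun q : P × Z => ¬ E q.1 q.2 := by
    rw [Pr, Ex_prod]
    refine Ex_congr fun p => Ex_congr fun z => ?_
    rw [hu3]
    by_cases h : E p z <;> simp [h]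
  rw [h15] at h7
  linarith

theorem bad_bound (hD : DecodeThm) {n N r L : ℕ} [NeZero n] [NeZero N] [NeZero r] [NeZero L]
    (Em τ τ' η t : ℝ) (J : ℕ) (hτ : 0 < τ) (hτ' : 0 < τ') (hS : StructAt Em (τ / 4) τ')
    (hJ : 1 / τ' ≤ J) (hJ' : 2 / τ ≤ J) (ht : 0 ≤ t) (G : PG ℕ ℕ (Fin r) (Fin r)) (hG : G ≠ [])
    (hη : G.Sound η) (A : Asg n N r) :
    Pr (fun p : Win n N → Fin G.length => ∃ θ,
        t ≤ Pr fun z : Win n N × (Fin n → Fin L) => τ / 2 ≤ sig A (eo G p) z.1 z.2 θ) * t ^ 2 ≤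
      (J : ℝ) ^ 2 * η + (n : ℝ) / N +
        Pr fun q : (Win n N → Fin G.length) × (Win n N × (Fin n → Fin L)) =>
          Em < en A (eo G q.1) q.2.1 q.2.2 := by
  have hne : Nonempty (Win n N → Fin G.length) := ⟨fun _ => ⟨0, List.length_pos_iff.2 hG⟩⟩
  have hη0 : 0 ≤ (J : ℝ) ^ 2 * η := mul_nonneg (sq_nonneg _) (sound_nonneg hG hη)
  have h1 : (Ex fun z : Win n N × (Fin n → Fin L) =>
      Pr fun z' : Win n N × (Fin n → Fin L) => ¬ Dj z.1 z'.1) ≤ (n : ℝ) / N := by
    refine le_trans (le_of_eq ?_) (Pr_coll (n := n) (N := N))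
    rw [Ex_prod]
    refine Ex_congr fun c => ?_
    have h2 : ∀ a : Fin n → Fin L, (Pr fun z' : Win n N × (Fin n → Fin L) => ¬ Dj (c, a).1 z'.1) =
        Pr fun c' : Win n N => ¬ Dj c c' := by
      intro a
      rw [Pr_prod, Pr]
      refine Ex_congr fun c' => ?_
      by_cases h : Dj c c'
      · rw [if_neg (not_not.2 h), Pr]
        refine (Ex_congr (g := fun _ : Fin n → Fin L => (0 : ℝ)) fun x => ?_).trans
          (Ex_const (α := Fin n → Fin L) 0)
        rw [if_neg (not_not.2 h)]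
      · rw [if_pos h, Pr]
        refine (Ex_congr (g := fun _ : Fin n → Fin L => (1 : ℝ)) fun x => ?_).trans
          (Ex_const (α := Fin n → Fin L) 1)
        rw [if_pos h]
    rw [show (fun y : Fin n → Fin L => Pr fun z' : Win n N × (Fin n → Fin L) =>
      ¬ Dj (c, y).1 z'.1) = fun _ => Pr fun c' : Win n N => ¬ Dj c c' from funext h2]
    exact Ex_const (α := Fin n → Fin L) _
  have h3 := abstract_bad (P := Win n N → Fin G.length) (Z := Win n N × (Fin n → Fin L))
    (Θ := Lab n N r) (fun p θ z => τ / 2 ≤ sig A (eo G p) z.1 z.2 θ) (fun z z' => Dj z.1 z'.1)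
    (fun p z => en A (eo G p) z.1 z.2 ≤ Em) t ((n : ℝ) / N) ((J : ℝ) ^ 2 * η) ht hη0 h1
    (fun z z' hz => hD n N r L Em τ τ' η J hτ hτ' hS hJ hJ' G hG hη A z.1 z'.1 hz z.2 z'.2)
  simp only [not_le] at h3
  exact h3

end Vale.Agent.P325.H469.K2
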