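import Vale.Agent.P325.H111.K2.Cube

/-!
# Fourier expansion on the discrete cube: orthogonality, inversion, Parseval, noise kernels
-/

namespace Vale.Agent.P325.H469.K2

open Finset Vale.Agent.P325.K2

section

variable {ι : Type}

theorem sg_mul_self (b : Bool) : sg b * sg b = 1 := by
  cases b <;> norm_num [sg]

theorem sg_not (b : Bool) : sg (!b) = - sg b := by
  cases b <;> norm_num [sg]

theorem abs_sg (b : Bool) : |sg b| = 1 := by
  cases b <;> norm_num [sg]

theorem sg_mul_sg_of_ne {a b : Bool} (h : a ≠ b) : sg a * sg b = -1 := by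
  cases a <;> cases b <;> simp_all [sg]

theorem chi_empty (x : ι → Bool) : chi (∅ : Finset ι) x = 1 := by
  simp [chi]

theorem chi_singleton (i : ι) (x : ι → Bool) : chi {i} x = sg (x i) := by
  simp [chi]

theorem chi_mul_self (S : Finset ι) (x : ι → Bool) : chi S x * chi S x = 1 := by
  rw [chi, ← prod_mul_distrib]
  exact prod_eq_one fun i _ => sg_mul_self _

theorem chi_sq (S : Finset ι) (x : ι → Bool) : chi S x ^ 2 = 1 := by
  rw [sq, chi_mul_self]

theorem abs_chi (S : Finset ι) (x : ι → Bool) : |chi S x| = 1 := by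
  rw [chi, abs_prod]
  exact prod_eq_one fun i _ => abs_sg _

end

section

variable {ι : Type} [DecidableEq ι]

theorem chi_insert {S : Finset ι} {i : ι} (h : i ∉ S) (x : ι → Bool) :
    chi (insert i S) x = sg (x i) * chi S x := by
  rw [chi, prod_insert h, chi]

theorem chi_flp_of_mem {S : Finset ι} {i : ι} (h : i ∈ S) (x : ι → Bool) :
    chi S (flp x i) = - chi S x := by
  rw [chi, chi, ← mul_prod_erase _ _ h, ← mul_prod_erase _ (fun j => sg (x j)) h, flp,
    Function.update_self, sg_not, neg_mul]
  congr 2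
  refine prod_congr rfl fun j hj => ?_
  rw [Function.update_of_ne (ne_of_mem_erase hj)]

theorem chi_flp_of_notMem {S : Finset ι} {i : ι} (h : i ∉ S) (x : ι → Bool) :
    chi S (flp x i) = chi S x := by
  refine prod_congr rfl fun j hj => ?_
  have hji : j ≠ i := fun hji => h (hji ▸ hj)
  rw [flp, Function.update_of_ne hji]

theorem chi_mul (S T : Finset ι) (x : ι → Bool) :
    chi S x * chi T x = chi (symmDiff S T) x := by
  have h1 : chi S x = chi (S \ T) x * chi (S ∩ T) x := by
    rw [chi, chi, chi, ← prod_union (disjoint_sdiff_inter S T), sdiff_union_inter]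
  have h2 : chi T x = chi (T \ S) x * chi (S ∩ T) x := by
    rw [chi, chi, chi, inter_comm, ← prod_union (disjoint_sdiff_inter T S), sdiff_union_inter]
  have h3 : chi (symmDiff S T) x = chi (S \ T) x * chi (T \ S) x := by
    rw [symmDiff_def, sup_eq_union, chi, prod_union disjoint_sdiff_sdiff]
    rfl
  rw [h1, h2, h3]
  have h4 := chi_mul_self (S ∩ T) x
  linear_combination (chi (S \ T) x * chi (T \ S) x) * h4

/-- Change of one bit preserves the average. -/
theorem flp_flp (x : ι → Bool) (i : ι) : flp (flp x i) i = x := by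
  simp [flp]

end

section

variable {ι : Type} [Fintype ι] [DecidableEq ι]

theorem Ex_flp (f : (ι → Bool) → ℝ) (i : ι) : (Ex fun x => f (flp x i)) = Ex f :=
  Ex_equiv (Function.Involutive.toPerm (fun x : ι → Bool => flp x i) fun x => flp_flp x i) f

theorem Ex_chi_of_ne {S : Finset ι} (h : S ≠ ∅) : Ex (fun x : ι → Bool => chi S x) = 0 := by
  obtain ⟨i, hi⟩ := nonempty_iff_ne_empty.2 h
  have h1 := Ex_flp (fun x : ι → Bool => chi S x) i
  simp only [chi_flp_of_mem hi, Ex_neg] at h1
  linarith

theorem Ex_chi (S : Finset ι) : Ex (fun x : ι → Bool => chi S x) = if S = ∅ then 1 else 0 := by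
  split_ifs with h
  · subst h
    simp only [chi_empty]
    exact Ex_const 1
  · exact Ex_chi_of_ne h

theorem Ex_chi_mul_chi (S T : Finset ι) :
    Ex (fun x : ι → Bool => chi S x * chi T x) = if S = T then 1 else 0 := by
  simp only [chi_mul, Ex_chi]
  congr 1
  exact propext symmDiff_eq_bot

/-- The product formula for the noise kernels. -/
theorem sum_kernel (ρ : ℝ) (A : Finset ι) (x y : ι → Bool) :
    ∑ S : Finset ι, (if Disjoint S A then ρ ^ #S * (chi S x * chi S y) else 0) =
      ∏ i ∈ Aᶜ, (1 + ρ * (sg (x i) * sg (y i))) := by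
  rw [prod_one_add, ← sum_filter]
  have h1 : (univ.filter fun S : Finset ι => Disjoint S A) = (Aᶜ).powerset := by
    ext S
    simp only [mem_filter, mem_univ, true_and, mem_powerset]
    exact le_compl_iff_disjoint_right.symm
  rw [h1]
  refine sum_congr rfl fun S _ => ?_
  rw [prod_mul_distrib, prod_const, prod_mul_distrib]
  rfl

theorem sum_chi_mul_chi (x y : ι → Bool) :
    ∑ S : Finset ι, chi S x * chi S y = if x = y then (Fintype.card (ι → Bool) : ℝ) else 0 := by
  have h1 := sum_kernel 1 ∅ x y
  simp only [disjoint_empty_right, if_true, one_pow, one_mul, compl_empty] at h1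
  rw [h1]
  split_ifs with h
  · subst h
    simp only [sg_mul_self]
    simp
    norm_num
  · obtain ⟨i, hi⟩ := Function.ne_iff.1 h
    refine prod_eq_zero (mem_univ i) ?_
    rw [sg_mul_sg_of_ne hi]
    norm_num

/-- Inversion. -/
theorem inversion (f : (ι → Bool) → ℝ) (x : ι → Bool) : f x = ∑ S : Finset ι, fc f S * chi S x := by
  have h0 : (Fintype.card (ι → Bool) : ℝ) ≠ 0 := by exact_mod_cast Fintype.card_ne_zero
  have h1 : ∑ S : Finset ι, fc f S * chi S x =
      (∑ y, f y * ∑ S : Finset ι, chi S y * chi S x) / Fintype.card (ι → Bool) := by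
    simp only [fc, Ex, mul_sum, sum_div, div_mul_eq_mul_div, sum_mul]
    rw [sum_comm]
    refine sum_congr rfl fun y _ => sum_congr rfl fun S _ => ?_
    ring
  rw [h1]
  simp only [sum_chi_mul_chi, mul_ite, mul_zero, sum_ite_eq', mem_univ, if_true]
  field_simp

theorem fc_add (f g : (ι → Bool) → ℝ) (S : Finset ι) :
    fc (fun x => f x + g x) S = fc f S + fc g S := by
  simp only [fc, add_mul, Ex_add]

theorem fc_sub (f g : (ι → Bool) → ℝ) (S : Finset ι) :
    fc (fun x => f x - g x) S = fc f S - fc g S := by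
  simp only [fc, sub_mul, Ex_sub]

theorem fc_neg (f : (ι → Bool) → ℝ) (S : Finset ι) : fc (fun x => - f x) S = - fc f S := by
  simp only [fc, neg_mul, Ex_neg]

theorem fc_const_mul (c : ℝ) (f : (ι → Bool) → ℝ) (S : Finset ι) :
    fc (fun x => c * f x) S = c * fc f S := by
  simp only [fc, mul_assoc, Ex_const_mul]

theorem fc_sum {κ : Type} (s : Finset κ) (f : κ → (ι → Bool) → ℝ) (S : Finset ι) :
    fc (fun x => ∑ k ∈ s, f k x) S = ∑ k ∈ s, fc (f k) S := by
  simp only [fc, sum_mul, Ex_sum]

/-- The coefficients of an expansion. -/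
theorem fc_expansion (c : Finset ι → ℝ) (S : Finset ι) :
    fc (fun x => ∑ T : Finset ι, c T * chi T x) S = c S := by
  rw [fc_sum]
  simp only [fc, mul_assoc, Ex_const_mul, Ex_chi_mul_chi, mul_ite, mul_one, mul_zero,
    sum_ite_eq', mem_univ, if_true]

theorem fc_chi (T S : Finset ι) : fc (fun x => chi T x) S = if T = S then 1 else 0 :=
  Ex_chi_mul_chi T S

/-- Polarized Parseval identity. -/
theorem parseval_mul (f g : (ι → Bool) → ℝ) :
    Ex (fun x => f x * g x) = ∑ S : Finset ι, fc f S * fc g S := by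
  have h1 : ∀ x, f x * g x = ∑ S : Finset ι, fc g S * (f x * chi S x) := by
    intro x
    conv_lhs => rw [inversion g x]
    rw [mul_sum]
    refine sum_congr rfl fun S _ => ?_
    ring
  simp only [h1, Ex_sum, Ex_const_mul]
  refine sum_congr rfl fun S _ => ?_
  rw [mul_comm]
  rfl

/-- Parseval identity. -/
theorem parseval (f : (ι → Bool) → ℝ) : Ex (fun x => f x ^ 2) = ∑ S : Finset ι, fc f S ^ 2 := by
  simp only [sq]
  exact parseval_mul f f

theorem parseval_sign {f : (ι → Bool) → ℝ} (hf : IsSign f) : ∑ S : Finset ι, fc f S ^ 2 = 1 := by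
  rw [← parseval]
  have h1 : ∀ x, f x ^ 2 = 1 := by
    intro x
    rcases hf x with h | h <;> rw [h] <;> norm_num
  simp only [h1]
  exact Ex_const 1

/-- A weighted sum of products of coefficients is given by a kernel. -/
theorem sum_weight (w : Finset ι → ℝ) (f g : (ι → Bool) → ℝ) :
    ∑ S : Finset ι, w S * (fc f S * fc g S) =
      Ex fun x => Ex fun y => f x * g y * ∑ S : Finset ι, w S * (chi S x * chi S y) := by
  have h1 : ∀ x y, f x * g y * ∑ S : Finset ι, w S * (chi S x * chi S y) =
      ∑ S : Finset ι, w S * ((f x * chi S x) * (g y * chi S y)) := by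
    intro x y
    rw [mul_sum]
    refine sum_congr rfl fun S _ => ?_
    ring
  simp only [h1, Ex_sum, Ex_const_mul]
  refine sum_congr rfl fun S _ => ?_
  simp only [Ex_mul_const]
  rfl

end

end Vale.Agent.P325.H469.K2
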